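import Vale.Agent.P038.MathlibUsed
import Mathlib.LinearAlgebra.Matrix.Rank
import Mathlib.LinearAlgebra.Matrix.Nondegenerate
import Mathlib.LinearAlgebra.Matrix.ToLinearEquiv
import Mathlib.Combinatorics.Hall.Basic
import Mathlib.Algebra.MvPolynomial.Eval
import Mathlib.RingTheory.Localization.FractionRing
import Mathlib.RingTheory.MvPolynomial.Basic
import Mathlib.Data.Matrix.ColumnRowPartitioned

/-!
# P038 (H523): the square of four spaces

The generic matrix with support in a relation `r`, and the inequality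
`|A| + |E| ≤ |G| + |H|` for finite sets of pairs with a commuting square and two Hall conditions.
-/

namespace Vale.Agent.P038.H523

open Finset Matrix

variable {V : Type*} [Fintype V] [DecidableEq V]

/-- the field of rational functions in the entries of a generic matrix -/
abbrev KF (V : Type*) : Type _ := FractionRing (MvPolynomial (V × V) ℚ)

open Classical in
/-- generic matrix with support in `r` -/
noncomputable def p (r : V → V → Prop) (u x : V) : KF V :=
  if r x u then algebraMap (MvPolynomial (V × V) ℚ) (KF V) (MvPolynomial.X (u, x)) else 0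

omit [Fintype V] [DecidableEq V] in
theorem p_eq_zero {r : V → V → Prop} {u x : V} (h : ¬ r x u) : p r u x = 0 := by
  unfold p; rw [if_neg h]

open Classical in
omit [Fintype V] in
/-- A block of the generic matrix with Hall's condition is injective. -/
theorem gen (r : V → V → Prop) (S T : Finset V)
    (hall : ∀ S' ⊆ S, S'.card ≤ (T.filter fun u => ∃ x ∈ S', r x u).card)
    (c : V → KF V) (h : ∀ u ∈ T, ∑ x ∈ S, p r u x * c x = 0) : ∀ x ∈ S, c x = 0 := by
  have hH : ∀ s : Finset S, s.card ≤ (s.biUnion fun x : S => T.filter fun u => r x u).card := by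
    intro s
    have h1 := hall (s.map (Function.Embedding.subtype _)) (by
      intro x hx
      obtain ⟨y, _, rfl⟩ := Finset.mem_map.1 hx
      exact y.2)
    rw [Finset.card_map] at h1
    refine h1.trans (Finset.card_le_card ?_)
    intro u hu
    obtain ⟨huT, x, hx, hxu⟩ := Finset.mem_filter.1 hu
    obtain ⟨y, hy, rfl⟩ := Finset.mem_map.1 hx
    exact Finset.mem_biUnion.2 ⟨y, hy, Finset.mem_filter.2 ⟨huT, hxu⟩⟩
  obtain ⟨f, hf, hfm⟩ := (Finset.all_card_le_biUnion_card_iff_exists_injective _).1 hH
  have hfT : ∀ x : S, f x ∈ T := fun x => (Finset.mem_filter.1 (hfm x)).1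
  have hfr : ∀ x : S, r x (f x) := fun x => (Finset.mem_filter.1 (hfm x)).2
  obtain ⟨M0, hM0⟩ : ∃ M : Matrix S S (MvPolynomial (V × V) ℚ), ∀ i j, M i j =
      if r j (f i) then MvPolynomial.X (f i, (j : V)) else 0 :=
    ⟨Matrix.of fun i j => _, fun _ _ => rfl⟩
  obtain ⟨M, hM⟩ : ∃ M : Matrix S S (KF V), ∀ i j, M i j = p r (f i) j :=
    ⟨Matrix.of fun i j => _, fun _ _ => rfl⟩
  have hMM : M = (algebraMap (MvPolynomial (V × V) ℚ) (KF V)).mapMatrix M0 := by
    ext i j
    rw [RingHom.mapMatrix_apply, Matrix.map_apply, hM, hM0]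
    unfold p
    split_ifs <;> simp
  let pt : V × V → ℚ := fun q => if ∃ i : S, f i = q.1 ∧ (i : V) = q.2 then 1 else 0
  have hev : (MvPolynomial.eval pt).mapMatrix M0 = 1 := by
    ext i j
    rw [RingHom.mapMatrix_apply, Matrix.map_apply, hM0]
    by_cases hij : i = j
    · subst hij
      rw [if_pos (hfr i), MvPolynomial.eval_X, Matrix.one_apply_eq]
      exact if_pos ⟨i, rfl, rfl⟩
    · rw [Matrix.one_apply_ne hij]
      split_ifs with h1
      · rw [MvPolynomial.eval_X]
        refine if_neg ?_
        rintro ⟨k, hk1, hk2⟩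
        have h2 := hf hk1
        subst h2
        exact hij (Subtype.ext hk2)
      · exact map_zero _
  have hdet0 : M0.det ≠ 0 := by
    intro h0
    have h1 := congrArg (MvPolynomial.eval pt) h0
    rw [RingHom.map_det, hev, Matrix.det_one, map_zero] at h1
    exact one_ne_zero h1
  have hdet : M.det ≠ 0 := by
    rw [hMM, ← RingHom.map_det]
    intro h0
    exact hdet0 ((map_eq_zero_iff _ (IsFractionRing.injective _ _)).1 h0)
  have hmv : M.mulVec (fun j : S => c j) = 0 := by
    funext i
    have h1 := h (f i) (hfT i)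
    rw [← Finset.sum_coe_sort] at h1
    simpa [Matrix.mulVec, dotProduct, hM] using h1
  have h0 := Matrix.eq_zero_of_mulVec_eq_zero hdet hmv
  intro x hx
  exact congrFun h0 ⟨x, hx⟩

open Classical in
/-- **Key inequality.** -/
theorem key (r : V → V → Prop) (A E G H : Finset (V × V))
    (sq : ∀ a x a' u, (a, x) ∈ A → r a' a → r x u → (a', u) ∈ E → (a', x) ∈ G ∧ (a, u) ∈ H)
    (hrow : ∀ a, ∀ S : Finset V, (∀ x ∈ S, (a, x) ∈ A) →
      S.card ≤ (Finset.univ.filter fun u => (a, u) ∈ H ∧ ∃ x ∈ S, r x u).card)
    (hcol : ∀ u, ∀ S : Finset V, (∀ a' ∈ S, (a', u) ∈ E) →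
      S.card ≤ (Finset.univ.filter fun a => (a, u) ∈ H ∧ ∃ a' ∈ S, r a' a).card) :
    A.card + E.card ≤ G.card + H.card := by
  obtain ⟨g1, g1a⟩ : ∃ g : Matrix H A (KF V), ∀ h α, g h α =
      if (h : V × V).1 = (α : V × V).1 then p r (h : V × V).2 (α : V × V).2 else 0 :=
    ⟨Matrix.of fun h α => _, fun _ _ => rfl⟩
  obtain ⟨f1, f1a⟩ : ∃ g : Matrix G A (KF V), ∀ h α, g h α =
      if (h : V × V).2 = (α : V × V).2 then p r (α : V × V).1 (h : V × V).1 else 0 :=
    ⟨Matrix.of fun h α => _, fun _ _ => rfl⟩
  obtain ⟨g2, g2a⟩ : ∃ g : Matrix E H (KF V), ∀ e h, g e h =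
      if (e : V × V).2 = (h : V × V).2 then p r (h : V × V).1 (e : V × V).1 else 0 :=
    ⟨Matrix.of fun h α => _, fun _ _ => rfl⟩
  obtain ⟨f2, f2a⟩ : ∃ g : Matrix E G (KF V), ∀ e h, g e h =
      if (e : V × V).1 = (h : V × V).1 then p r (e : V × V).2 (h : V × V).2 else 0 :=
    ⟨Matrix.of fun h α => _, fun _ _ => rfl⟩
  -- the square commutes
  have hsq : g2 * g1 = f2 * f1 := by
    ext e α
    obtain ⟨⟨a', u⟩, he⟩ := e
    obtain ⟨⟨a, x⟩, hα⟩ := α
    simp only [Matrix.mul_apply, g1a, g2a, f1a, f2a]
    have h1 : (∑ h : H, (if u = (h : V × V).2 then p r (h : V × V).1 a' else 0) *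
        (if (h : V × V).1 = a then p r (h : V × V).2 x else 0)) =
        ∑ h ∈ H, (if u = h.2 then p r h.1 a' else 0) * (if h.1 = a then p r h.2 x else 0) :=
      Finset.sum_coe_sort H (fun h : V × V =>
        (if u = h.2 then p r h.1 a' else 0) * (if h.1 = a then p r h.2 x else 0))
    have h2 : (∑ g : G, (if a' = (g : V × V).1 then p r u (g : V × V).2 else 0) *
        (if (g : V × V).2 = x then p r a (g : V × V).1 else 0)) =
        ∑ g ∈ G, (if a' = g.1 then p r u g.2 else 0) * (if g.2 = x then p r a g.1 else 0) :=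
      Finset.sum_coe_sort G (fun g : V × V =>
        (if a' = g.1 then p r u g.2 else 0) * (if g.2 = x then p r a g.1 else 0))
    rw [h1, h2]
    by_cases hr : r a' a ∧ r x u
    · obtain ⟨hG, hH⟩ := sq a x a' u hα hr.1 hr.2 he
      rw [Finset.sum_eq_single_of_mem (a, u) hH, Finset.sum_eq_single_of_mem (a', x) hG]
      · simp [mul_comm]
      · rintro ⟨b, y⟩ _ hne
        by_cases hb : a' = b
        · by_cases hy : y = x
          · exact absurd (by rw [hb, hy]) hne
          · simp [hy]
        · simp [hb]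
      · rintro ⟨b, y⟩ _ hne
        by_cases hb : b = a
        · by_cases hy : u = y
          · exact absurd (by rw [hb, hy]) hne
          · simp [hy]
        · simp [hb]
    · have hz : p r a a' * p r u x = 0 := by
        rcases not_and_or.1 hr with h3 | h3
        · rw [p_eq_zero h3, zero_mul]
        · rw [p_eq_zero h3, mul_zero]
      rw [Finset.sum_eq_zero, Finset.sum_eq_zero]
      · rintro ⟨b, y⟩ _
        by_cases hb : a' = b
        · by_cases hy : y = x
          · subst hb; subst hy
            simp only [if_true]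
            rw [mul_comm]; exact hz
          · simp [hy]
        · simp [hb]
      · rintro ⟨b, y⟩ _
        by_cases hb : b = a
        · by_cases hy : u = y
          · subst hb; subst hy
            simp only [if_true]
            exact hz
          · simp [hy]
        · simp [hb]
  -- `g1` is injective
  have hg1 : ∀ c : A → KF V, g1.mulVec c = 0 → c = 0 := by
    intro c hc
    let c' : V × V → KF V := fun q => if h : q ∈ A then c ⟨q, h⟩ else 0
    have key1 : ∀ a u, (a, u) ∈ H →
        ∑ x ∈ Finset.univ.filter (fun x => (a, x) ∈ A), p r u x * c' (a, x) = 0 := by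
      intro a u hu
      have h1 := congrFun hc ⟨(a, u), hu⟩
      simp only [Matrix.mulVec, dotProduct, g1a, Pi.zero_apply] at h1
      have h2 : (∑ α : A, (if a = (α : V × V).1 then p r u (α : V × V).2 else 0) * c α) =
          ∑ q ∈ A, (if a = q.1 then p r u q.2 else 0) * c' q := by
        rw [← Finset.sum_coe_sort A
          (fun q : V × V => (if a = q.1 then p r u q.2 else 0) * c' q)]
        refine Finset.sum_congr rfl fun α _ => ?_
        have : c' (α : V × V) = c α := by
          simp only [c']; rw [dif_pos α.2]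
        rw [this]
      rw [h2] at h1
      rw [← h1]
      symm
      rw [← Finset.sum_filter_add_sum_filter_not A (fun q => a = q.1)]
      have h3 : ∑ q ∈ A.filter (fun q => ¬ a = q.1),
          (if a = q.1 then p r u q.2 else 0) * c' q = 0 := by
        refine Finset.sum_eq_zero fun q hq => ?_
        rw [if_neg (Finset.mem_filter.1 hq).2, zero_mul]
      rw [h3, add_zero]
      refine (Finset.sum_bij (fun x _ => ((a, x) : V × V)) ?_ ?_ ?_ ?_).symm
      · intro x hx
        exact Finset.mem_filter.2 ⟨(Finset.mem_filter.1 hx).2, rfl⟩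
      · intro x _ y _ hxy
        exact (Prod.ext_iff.1 hxy).2
      · rintro ⟨b, x⟩ hq
        obtain ⟨hqA, hab⟩ := Finset.mem_filter.1 hq
        simp only at hab
        subst hab
        exact ⟨x, Finset.mem_filter.2 ⟨Finset.mem_univ _, hqA⟩, rfl⟩
      · intro x _
        simp
    funext α
    obtain ⟨⟨a, x⟩, hα⟩ := α
    have h4 := gen r (Finset.univ.filter fun x => (a, x) ∈ A)
      (Finset.univ.filter fun u => (a, u) ∈ H) (by
        intro S' hS'
        refine (hrow a S' fun x hx => (Finset.mem_filter.1 (hS' hx)).2).trans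
          (Finset.card_le_card ?_)
        intro u hu
        obtain ⟨_, huH, hu2⟩ := Finset.mem_filter.1 hu
        exact Finset.mem_filter.2 ⟨Finset.mem_filter.2 ⟨Finset.mem_univ _, huH⟩, hu2⟩)
      (fun x => c' (a, x)) (fun u hu => key1 a u (Finset.mem_filter.1 hu).2) x
      (Finset.mem_filter.2 ⟨Finset.mem_univ _, hα⟩)
    simp only [c'] at h4
    rw [dif_pos hα] at h4
    exact h4
  -- the transpose of `g2` is injective
  have hg2 : ∀ c : E → KF V, g2ᵀ.mulVec c = 0 → c = 0 := by
    intro c hc
    let c' : V × V → KF V := fun q => if h : q ∈ E then c ⟨q, h⟩ else 0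
    have key1 : ∀ u a, (a, u) ∈ H →
        ∑ x ∈ Finset.univ.filter (fun x => (x, u) ∈ E), p r a x * c' (x, u) = 0 := by
      intro u a hu
      have h1 := congrFun hc ⟨(a, u), hu⟩
      simp only [Matrix.mulVec, dotProduct, Matrix.transpose_apply, g2a, Pi.zero_apply] at h1
      have h2 : (∑ α : E, (if (α : V × V).2 = u then p r a (α : V × V).1 else 0) * c α) =
          ∑ q ∈ E, (if q.2 = u then p r a q.1 else 0) * c' q := by
        rw [← Finset.sum_coe_sort E
          (fun q : V × V => (if q.2 = u then p r a q.1 else 0) * c' q)]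
        refine Finset.sum_congr rfl fun α _ => ?_
        have : c' (α : V × V) = c α := by
          simp only [c']; rw [dif_pos α.2]
        rw [this]
      rw [h2] at h1
      rw [← h1]
      symm
      rw [← Finset.sum_filter_add_sum_filter_not E (fun q => q.2 = u)]
      have h3 : ∑ q ∈ E.filter (fun q => ¬ q.2 = u),
          (if q.2 = u then p r a q.1 else 0) * c' q = 0 := by
        refine Finset.sum_eq_zero fun q hq => ?_
        rw [if_neg (Finset.mem_filter.1 hq).2, zero_mul]
      rw [h3, add_zero]
      refine (Finset.sum_bij (fun x _ => ((x, u) : V × V)) ?_ ?_ ?_ ?_).symm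
      · intro x hx
        exact Finset.mem_filter.2 ⟨(Finset.mem_filter.1 hx).2, rfl⟩
      · intro x _ y _ hxy
        exact (Prod.ext_iff.1 hxy).1
      · rintro ⟨x, b⟩ hq
        obtain ⟨hqA, hab⟩ := Finset.mem_filter.1 hq
        simp only at hab
        subst hab
        exact ⟨x, Finset.mem_filter.2 ⟨Finset.mem_univ _, hqA⟩, rfl⟩
      · intro x _
        simp
    funext α
    obtain ⟨⟨x, u⟩, hα⟩ := α
    have h4 := gen r (Finset.univ.filter fun x => (x, u) ∈ E)
      (Finset.univ.filter fun a => (a, u) ∈ H) (by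
        intro S' hS'
        refine (hcol u S' fun x hx => (Finset.mem_filter.1 (hS' hx)).2).trans
          (Finset.card_le_card ?_)
        intro a ha
        obtain ⟨_, huH, hu2⟩ := Finset.mem_filter.1 ha
        exact Finset.mem_filter.2 ⟨Finset.mem_filter.2 ⟨Finset.mem_univ _, huH⟩, hu2⟩)
      (fun x => c' (x, u)) (fun a ha => key1 u a (Finset.mem_filter.1 ha).2) x
      (Finset.mem_filter.2 ⟨Finset.mem_univ _, hα⟩)
    simp only [c'] at h4
    rw [dif_pos hα] at h4
    exact h4
  -- ranks
  have hrank : ∀ {m n : Type _} [Fintype m] [Fintype n] (M : Matrix m n (KF V)),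
      (∀ c : n → KF V, M.mulVec c = 0 → c = 0) → M.rank = Fintype.card n := by
    intro m n _ _ M hM
    have h1 : Function.Injective M.mulVecLin := by
      rw [← LinearMap.ker_eq_bot, LinearMap.ker_eq_bot']
      intro c hc
      exact hM c (by simpa using hc)
    rw [Matrix.rank, LinearMap.finrank_range_of_inj h1, Module.finrank_fintype_fun_eq_card]
  let Θ : Matrix E (H ⊕ G) (KF V) := Matrix.fromCols g2 f2
  let Ψ : Matrix (H ⊕ G) A (KF V) := Matrix.fromRows g1 (-f1)
  have hΘΨ : Θ * Ψ = 0 := by
    simp only [Θ, Ψ]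
    rw [Matrix.fromCols_mul_fromRows, Matrix.mul_neg, hsq, add_neg_cancel]
  have hΨ : Ψ.rank = Fintype.card A := by
    refine hrank Ψ fun c hc => hg1 c ?_
    funext h
    have h1 := congrFun hc (Sum.inl h)
    simpa [Ψ, Matrix.mulVec, dotProduct] using h1
  have hΘ : Θ.rank = Fintype.card E := by
    rw [← Matrix.rank_transpose]
    refine hrank Θᵀ fun c hc => hg2 c ?_
    funext h
    have h1 := congrFun hc (Sum.inl h)
    simpa [Θ, Matrix.mulVec, dotProduct] using h1
  have h := Matrix.rank_add_rank_le_card_of_mul_eq_zero hΘΨ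
  rw [hΘ, hΨ] at h
  simp only [Fintype.card_coe, Fintype.card_sum] at h
  omega

end Vale.Agent.P038.H523
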